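import Vale.Agent.P267.H509.CWInt
import Vale.Agent.P267.H221.Sys
import Vale.Agent.P267.H469.Inst
import Vale.Agent.P267.H928.Int.FLWedge
import Vale.Agent.P267.H399.LBCurv

/-! P267 / H509 (package RRC-CW, part W3): Riemann-Roch and Noether for the bundles of `Sys.lean`. -/

set_option linter.unusedSectionVars false

open scoped Manifold ContDiff ComplexConjugate Matrix ComplexOrder
open Set Filter Topology MeasureTheory

noncomputable section

namespace Vale.Agent.P267.H509

open Vale.Agent.P267.FL Vale.Agent.P267.RR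

variable {X : Type*} [TopologicalSpace X] [ChartedSpace C2 X] [IsManifold 𝓘(ℂ, C2) ω X]
variable {ι : Type} [Fintype ι] [DecidableEq ι] {ι' : Type} [Fintype ι'] [DecidableEq ι']

theorem d_smooth (A : OneF X) (hA : A.Smooth) : A.d.Smooth where
  s20 := H469.reg_del10 hA.s10
  s11 := by
    have h1 := H469.reg_del1 hA.s01
    have h2 := H469.reg_dbar10 hA.s10
    intro e he i j
    refine ((h1 e he i j).add (h2 e he i j)).congr fun z _ => ?_
    simp only [loc11, OneF.d, Pi.add_apply, Matrix.add_apply, Matrix.of_apply, smul_eq_mul,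
      Fin.sum_univ_two]
    ring
  s02 := H469.reg_dbar1 hA.s01

theorem d_closed (A : OneF X) (hA : A.Smooth) : A.d.Closed := by
  have h := H469.D2_D1 (X := X) (⟨A.f10, hA.s10⟩, ⟨A.f01, hA.s01⟩)
  have h1 : A.d.d21 = 0 := by
    have h2 := congrArg (fun p => (p.1 : X → Fin 2 → ℂ)) h
    exact h2
  have h3 : A.d.d12 = 0 := by
    have h2 := congrArg (fun p => (p.2 : X → Fin 2 → ℂ)) h
    rw [H469.d12_eq]
    exact h2
  exact ⟨fun x j => by rw [h1]; rfl, fun x i => by rw [h3]; rfl⟩

theorem intH [T2Space X] [CompactSpace X] : IntH X where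
  wedge _ _ hF hG := H469.wedge_mem hF hG
  d_smooth := d_smooth
  d_closed := d_closed
  curv_smooth L := L.curv_smooth
  curv_closed L := L.curv_closed
  sub _ _ h h' := H533.intX_sub (Reg2.locInt h) (HasCompactSupport.of_compactSpace _)
    (Reg2.locInt h') (HasCompactSupport.of_compactSpace _)
  add _ _ h h' := H533.intX_add (Reg2.locInt h) (HasCompactSupport.of_compactSpace _)
    (Reg2.locInt h') (HasCompactSupport.of_compactSpace _)
  stokes _ _ hA hF hcl := intX_dA_wedge hA.c1 hF.c1 hcl isCompact_univ fun x hx =>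
    absurd (mem_univ x) hx

/-! ### bundles given by transition matrices -/

/-- the Riemann-Roch density of a holomorphic bundle in the chart `a` (with respect to Lebesgue
measure, up to the factor `1 / π²`) -/
def todd {A : FinAt X} {r : ℕ} (B : Bun A r) (a : Fin A.N) (z : C2) : ℂ :=
  dens (fun b x => (A.rho b x : ℂ)) (A.e a) (A.J a) (B.E a) z

omit [IsManifold 𝓘(ℂ, C2) ω X] in
theorem pu (A : FinAt X) : PU A.U fun b x => (A.rho b x : ℂ) where
  isOpen := A.isOpen_U
  smooth := A.rho_smooth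
  supp a := by
    have h1 : tsupport (fun x => (A.rho a x : ℂ)) = tsupport (A.rho a) := by
      have h2 : Function.support (fun x => (A.rho a x : ℂ)) = Function.support (A.rho a) := by
        ext y; simp
      rw [tsupport, h2, tsupport]
    rw [h1]
    exact A.rho_supp a
  sum x := by
    rw [← Complex.ofReal_sum, A.rho_sum, Complex.ofReal_one]

theorem regC_bun {A : FinAt X} {r : ℕ} (B : Bun A r) : RegC A.e A.U B.E where
  c1 a b _ hx p q := ((B.hol a b _ (FinAt.mem_ov hx.1 hx.2) p q).contDiffAt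
    (n := 1)).restrict_scalars ℝ
  det a b x hx := by
    have h := B.comp a b a _ (FinAt.mem_ov hx.1 hx.2) (FinAt.mem_ov hx.1 hx.1)
    rw [B.self a _ (FinAt.mem_O hx.1)] at h
    intro h0
    have h1 := congrArg Matrix.det h
    rw [Matrix.det_mul, h0, mul_zero, Matrix.det_one] at h1
    exact zero_ne_one h1

theorem cov_congr {n : ℕ} {A A' : C2 → Matrix (Fin n) (Fin n) ℂ} {z : C2} (h : A =ᶠ[𝓝 z] A') :
    cov A z = cov A' z := by
  funext i
  have h1 : (Matrix.of fun p q => dz i (fun w => A w p q) z) =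
      Matrix.of fun p q => dz i (fun w => A' w p q) z := by
    ext p q
    simp only [Matrix.of_apply]
    exact dz_congr (h.mono fun w hw => by rw [hw]) i
  rw [cov, cov, h1, h.self_of_nhds]

/-- the integrand only depends on the cocycle on the overlaps -/
theorem integrand_congr {A : FinAt X} {r : ℕ}
    {E E' : Fin A.N → Fin A.N → C2 → Matrix (Fin r) (Fin r) ℂ}
    (h : ∀ a b, ∀ z ∈ A.ov a b, E a b z = E' a b z) (a : Fin A.N) {z : C2}
    (hz : z ∈ (A.e a).target) : integrand A.e A.rho E a z = integrand A.e A.rho E' a z := by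
  by_cases hU : (A.e a).symm z ∈ A.U a
  · have hx := (A.e a).map_target hz
    have e0 := (A.e a).right_inv hz
    have h1 : ∀ b, (A.e a).symm z ∈ A.U b → cov (E a b) z = cov (E' a b) z := by
      intro b hb
      refine cov_congr ?_
      filter_upwards [(A.isOpen_ov a b).mem_nhds (⟨⟨hz, hU⟩, hb⟩ : z ∈ A.ov a b)] with w hw
      exact h a b w hw
    rw [integrand, integrand]
    refine congrArg (fun t : ℂ => (4 * (A.rho a ((A.e a).symm z) : ℂ)) * t) ?_
    rw [dens, dens]
    refine Finset.sum_congr rfl fun b _ => Finset.sum_congr rfl fun c _ => ?_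
    by_cases hb : (A.e a).symm z ∈ A.U b
    · by_cases hc : (A.e a).symm z ∈ A.U c
      · rw [h1 b hb, h1 c hc]
      · have h2 := dbl_zero (pu A) hx hc
        rw [e0] at h2
        rw [h2]
        simp [w2]
    · have h2 := dbl_zero (pu A) hx hb
      rw [e0] at h2
      rw [h2]
      simp [w2]
  · have h0 : (A.rho a ((A.e a).symm z) : ℂ) = 0 := cut_val ((pu A).supp a) hU
    rw [integrand, integrand, h0]
    ring

/-- the value of `chiI` only depends on the cocycle on the overlaps -/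
theorem chiI_congr {A : FinAt X} {r : ℕ}
    {E E' : Fin A.N → Fin A.N → C2 → Matrix (Fin r) (Fin r) ℂ}
    (h : ∀ a b, ∀ z ∈ A.ov a b, E a b z = E' a b z) : chiI A.e A.rho E = chiI A.e A.rho E' := by
  have key : ∀ a, ∀ z ∈ (A.e a).target,
      integrand A.e A.rho E a z = integrand A.e A.rho E' a z := by
    intro a z hz
    exact integrand_congr h a hz
  rw [chiI, chiI, Finset.sum_congr rfl fun a _ =>
    setIntegral_congr_fun (A.e a).open_target.measurableSet (key a)]

/-- the normalisation used by the kernel constructions -/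
theorem chiI_eq {A : FinAt X} {r : ℕ} (B : Bun A r) {D : Fin A.N → C2 → ℂ}
    (hD : ∀ a, ∀ z ∈ A.O a, D a z = 1 / (Real.pi : ℂ) ^ 2 * todd B a z) :
    ∑ a, ∫ z, (A.r a z : ℂ) * D a z = chiI A.e A.rho B.E := by
  rw [chiI, Finset.mul_sum]
  refine Finset.sum_congr rfl fun a _ => ?_
  have h1 : ∫ z in (A.e a).target, (A.r a z : ℂ) * D a z = ∫ z, (A.r a z : ℂ) * D a z := by
    refine setIntegral_eq_integral_of_forall_compl_eq_zero fun z hz => ?_
    have : A.r a z = 0 := by
      rw [FinAt.r, if_neg]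
      exact fun h => hz h.1
    rw [this]
    simp
  rw [← h1, ← integral_const_mul]
  refine setIntegral_congr_fun (A.e a).open_target.measurableSet fun z hz => ?_
  have hpi : (Real.pi : ℂ) ≠ 0 := by exact_mod_cast Real.pi_ne_zero
  by_cases hU : (A.e a).symm z ∈ A.U a
  · have hO : z ∈ A.O a := ⟨hz, hU⟩
    simp only [integrand, FinAt.r, if_pos hO, hD a z hO, todd]
    have : (fun b => Jc (A.e a) (A.e b)) = A.J a := rfl
    rw [this]
    field_simp
  · have hO : z ∉ A.O a := fun h => hU h.2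
    have h0 : (A.rho a ((A.e a).symm z) : ℂ) = 0 := cut_val ((pu A).supp a) hU
    simp only [integrand, FinAt.r, if_neg hO, h0]
    simp

section final

variable [T2Space X] [CompactSpace X] {A : FinAt X} {LK : LB X ι'}

/-- **Riemann-Roch**, for a line bundle with compatible frames `s` and transition functions
`s a = E a b • s b`; `BO` = the trivial bundle. -/
theorem riemann_roch (hK : IsCanon LK) {L : LB X ι} (B BO : Bun A 1)
    {s : Fin A.N → X → EuclideanSpace ℂ ι} (hs : CFr L A.U s)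
    (hE : ∀ a b, ∀ x ∈ A.U a ∩ A.U b, s a x = B.E a b (A.e a x) 0 0 • s b x)
    (hO : ∀ a b, ∀ z ∈ A.ov a b, BO.E a b z = 1)
    {χ χO : ℂ} {D DO : Fin A.N → C2 → ℂ}
    (hχ : χ = ∑ a, ∫ z, (A.r a z : ℂ) * D a z)
    (hχO : χO = ∑ a, ∫ z, (A.r a z : ℂ) * DO a z)
    (hD : ∀ a, ∀ z ∈ A.O a, D a z = 1 / (Real.pi : ℂ) ^ 2 * todd B a z)
    (hDO : ∀ a, ∀ z ∈ A.O a, DO a z = 1 / (Real.pi : ℂ) ^ 2 * todd BO a z) :
    χ = χO + (isec L L - isec L LK) / 2 := by
  obtain ⟨σ, h1, h2, h3⟩ := hK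
  rw [hχ, hχO, chiI_eq B hD, chiI_eq BO hDO, chiI_congr (E' := fun _ _ _ => 1) hO]
  refine rr_int intH (pu A) h1 h2 h3 A.he A.U_sub hs ⟨?_, ?_, hE⟩ (regC_bun B)
  · intro a b x hx
    exact ((regC_bun B).c1 a b x hx 0 0).differentiableAt (by simp)
  · intro a b x hx
    have h := (regC_bun B).det a b x hx
    simpa using h

/-- **Noether's formula**; `BO` = the trivial bundle, `BΩ` = the cotangent bundle. -/
theorem noether (hK : IsCanon LK) (BO : Bun A 1) (BΩ : Bun A 2)
    (hO : ∀ a b, ∀ z ∈ A.ov a b, BO.E a b z = 1)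
    (hΩ : ∀ a b, ∀ z ∈ A.ov a b, BΩ.E a b z = (A.J a b z)⁻¹ᵀ)
    {χO χΩ : ℂ} {DO DΩ : Fin A.N → C2 → ℂ}
    (hχO : χO = ∑ a, ∫ z, (A.r a z : ℂ) * DO a z)
    (hχΩ : χΩ = ∑ a, ∫ z, (A.r a z : ℂ) * DΩ a z)
    (hDO : ∀ a, ∀ z ∈ A.O a, DO a z = 1 / (Real.pi : ℂ) ^ 2 * todd BO a z)
    (hDΩ : ∀ a, ∀ z ∈ A.O a, DΩ a z = 1 / (Real.pi : ℂ) ^ 2 * todd BΩ a z) :
    isec LK LK = 10 * χO + χΩ := by
  obtain ⟨σ, h1, h2, h3⟩ := hK
  rw [hχO, hχΩ, chiI_eq BO hDO, chiI_eq BΩ hDΩ, chiI_congr (E' := fun _ _ _ => 1) hO,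
    chiI_congr (E' := fun a b => Oc (A.e a) (A.e b)) hΩ]
  exact noether_int intH (pu A) h1 h2 h3 A.he A.U_sub

end final

end Vale.Agent.P267.H509
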